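import Vale.Agent.P284.H402.R.Grp

/-!
# P284 (helper402): the structure of the quotients of the fundamental group, definitions
-/

noncomputable section

namespace Vale.Agent.P284.H402.R

open Vale.Agent.P284.H661.Grp

/-- A subgroup `G` of finite index of `Q` has an epimorphism onto `ℤ^m`, `m ≤ r`, with finitely generated
kernel `K`, and `K` is finite or has an infinite quotient `K/N` with Kazhdan's property (T), where `N` is
normal in `G`. -/
def AbelianOrKazhdan (Q : Type) [Group Q] (r : ℕ) : Prop :=
  ∃ (G : Subgroup Q) (m : ℕ) (χ : G →* Multiplicative (Fin m → ℤ)), G.FiniteIndex ∧ m ≤ r ∧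
    Function.Surjective χ ∧ Group.FG χ.ker ∧
    (Finite χ.ker ∨
      ∃ (N : Subgroup G) (_ : N.Normal), N ≤ χ.ker ∧ Infinite (χ.ker.map (QuotientGroup.mk' N)) ∧
        PropertyT (χ.ker.map (QuotientGroup.mk' N)))

theorem abelianOrKazhdan_iff {Q : Type} [Group Q] {r : ℕ} :
    AbelianOrKazhdan Q r ↔ H213.G.T3N0 Q r := Iff.rfl

end Vale.Agent.P284.H402.R
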