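import Vale.Agent.P284.H213.K.Fin
import Vale.Agent.P284.H213.N.Fin
import Vale.Agent.P284.H553.K8.EngF

/-!
# P284 (helper402): theorem T2 for special compact Kähler manifolds (no hypothesis on the coverings)
-/

open scoped Manifold ContDiff Topology InnerProductSpace
open Filter Set Metric

noncomputable section

namespace Vale.Agent.P284.H402.R

open Vale.Agent.P272.K Vale.Agent.P284.H894 Vale.Agent.P284.H894.G Vale.Agent.P284.H894.V
  Vale.Agent.P284.H894.W Vale.Agent.P284.H573 Vale.Agent.P284.H213.Grp Vale.Agent.P284.H213.Q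
  Vale.Agent.P284.H619 Vale.Agent.P284.H378 Vale.Agent.P284.H998 Vale.Agent.P284.H395
  Vale.Agent.P284.H837 Vale.Agent.P284.H625 Vale.Agent.P284.H501.Core Vale.Agent.P284.H501.T
  Vale.Agent.P284.H119.Kaz Vale.Agent.P284.H551 Vale.Agent.P284.H248 Vale.Agent.P284.H213.K

/-- the core for `q = 0`, special Kähler manifolds (after helper213's `core0_spK`) -/
theorem core0S (hSp : SpK) {n : ℕ} {X : Type}
    [TopologicalSpace X] [T2Space X] [CompactSpace X] [ConnectedSpace X]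
    [ChartedSpace (Cm n) X] [IsManifold 𝓘(ℂ, Cm n) ω X]
    (hDX : Special n X) {w : Chart n X → Cm n → Matrix (Fin n) (Fin n) ℂ} (hw : IsKahler w)
    {E Γ : Type} [TopologicalSpace E] [ConnectedSpace E] [Group Γ] [MulAction Γ E]
    {p : E → X} (hG : IsGalois Γ p) (hfr : H573.DK.FinRep Γ) :
    ¬ Lim0Concl (n := n) (Γ := Γ) p := by
  rintro ⟨W', i1', i2', i3', π', Θ', u', hΘ', hπ', hpot', hb', hne'⟩
  obtain ⟨W, i1, i2, i3, π, Θ, u, hΘ, hπ, hpot, hb, hne, hspan⟩ :=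
    exists_res0 hG.cov (fun g y => ((hG.orb y (g • y)).2 ⟨g, rfl⟩).symm) hΘ' hπ' hpot' hb' hne'
  set F : E → Cm 0 := fun _ => 0 with hF
  obtain ⟨r, m, H, j1, j2, j3, v, U, N, 𝒢, ⟨y, hy⟩, hL⟩ :=
    leaf0_of H812.NSF.ns2 hw hG hfr hΘ hπ hpot hb hne F
  obtain ⟨C, -, -, -, -⟩ := exists_eCoc hw hG
  have hfg : Group.FG Γ := H639.V.fg_of_coc C
  refine hSp n X w hw hDX E Γ p hG 0 F (fun _ => 0) (fun y e he => ?_)
    (fun g y => by simp [hF]) H (0 + (r + 1)) m (by omega) hL.m_pos v hL.form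
    (fun g => ⟨U g, fun y e he ξ => hL.equi g y e he ξ⟩) (nff_of_leaf hL hy) ?_
  · exact ⟨fun _ => 0, Eventually.of_forall fun _ => rfl, analyticAt_const⟩
  · exact H378.T.lfin0 hG hfg hfr (t := 0) (vpot0 hΘ hpot F 0) (vequi0 hπ hb F 0 ⊤) hspan hL

/-- **T2** for special compact Kähler manifolds -/
theorem t2S : MainPiK H213.N.spC PT2 := by
  refine mainPiK_of (mainSCT2K_of ?_)
  intro n X _ _ _ _ _ _ hDX w hw E Γ _ _ _ _ p hG hfr
  by_contra hK
  exact core0S H553.K8.spK hDX hw hG hfr (H15.T.limK n X w hw E Γ p hG hK)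

end Vale.Agent.P284.H402.R
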