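import Vale.Agent.P284.H402.R.Iff
import Vale.Agent.P284.H402.R.T2
import Vale.Agent.P284.H213.N.T3G

/-!
# P284 (helper402): the structure theorem for the quotients of the fundamental group of a special compact
Kähler manifold
-/

open scoped Manifold ContDiff Topology

noncomputable section

namespace Vale.Agent.P284.H402.R

open Vale.Agent.P272.K Vale.Agent.P284.H213.K Vale.Agent.P284.H213.N Vale.Agent.P284.H837.N
  Vale.Agent.P284.H894 Vale.Agent.P284.H894.G Vale.Agent.P284.H248 Vale.Agent.P284.H213.T3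
  Vale.Agent.P284.H894.F Vale.Agent.P284.H661.Grp

/-- the structure theorem, from T2 and T3 -/
theorem struct_of {D : H213.Q.Cls} (h2 : MainPiK D PT2) (h3 : MainPiK D H213.G.PNG) {n : ℕ} {X : Type}
    [TopologicalSpace X] [T2Space X] [CompactSpace X] [ConnectedSpace X] [ChartedSpace (Cm n) X]
    [IsManifold 𝓘(ℂ, Cm n) ω X] {w : Chart n X → Cm n → Matrix (Fin n) (Fin n) ℂ}
    (hw : IsKahler w) (hD : D n X) (x : X) (Q : Type) [Group Q] (f : FundamentalGroup X x →* Q)
    (hf : Function.Surjective f) :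
    (NSRep Q ∨ AbelianOrKazhdan Q (2 * n)) ∧
    (VirtuallyAbelian Q ↔ ¬ NSRep Q ∧ ¬ KazhdanSection Q) ∧
    (VirtuallyAbelian Q → VirtAbelianRank Q (2 * n)) ∧
    (FiniteImages Q → H661.Grp.PropertyT Q ∧ (Haagerup Q → Finite Q)) := by
  have h := h3 n X hD w hw x Q f hf
  refine ⟨h, (iff_va h).1, (iff_va h).2, fun hQ => ?_⟩
  have hT : H661.Grp.PropertyT Q := h2 n X hD w hw x Q f hf hQ
  exact ⟨hT, hT.finite⟩

end Vale.Agent.P284.H402.R
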