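import Vale.Agent.P284.H409.Rk
import Vale.Agent.P284.H837.VAF
import Vale.Agent.P284.H988.N.Fol
import Vale.Agent.P284.H213.G.S
import Vale.Agent.P284.H661.T.Grp
import Vale.Agent.P284.H446.FolSub

/-!
# P284 (helper402): group theory for the hand-in of theorem T3
-/

open scoped commutatorElement

noncomputable section

namespace Vale.Agent.P284.H402.R

open Vale.Agent.P284.H894.G Vale.Agent.P284.H894.F Vale.Agent.P284.H213.T3 Vale.Agent.P284.H213.G
  Vale.Agent.P284.H119.Kaz

/-- A subgroup `G` of finite index of `Q` has normal subgroups `N ≤ K` such that `K/N` is infinite and has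
Kazhdan's property (T). -/
def KazhdanSection (Q : Type) [Group Q] : Prop :=
  ∃ (G : Subgroup Q) (K N : Subgroup G) (_ : K.Normal) (_ : N.Normal), G.FiniteIndex ∧ N ≤ K ∧
    Infinite (K.map (QuotientGroup.mk' N)) ∧ H661.Grp.PropertyT (K.map (QuotientGroup.mk' N))

/-- A normal subgroup `K` of a subgroup `G` of finite index of `Q` has a finite dimensional real
representation the image of which is not virtually solvable. -/
def NSRepSub (Q : Type) [Group Q] : Prop :=
  ∃ (G : Subgroup Q) (K : Subgroup G) (_ : K.Normal), G.FiniteIndex ∧ Group.FG K ∧ NSRep K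

section
variable {G : Type} [Group G] {m : ℕ}

theorem fg_of_ext (χ : G →* Multiplicative (Fin m → ℤ)) (hK : Finite χ.ker) (g : Fin m → G)
    (hg : ∀ x : G, ∃ y ∈ Subgroup.closure (Set.range g), y⁻¹ * x ∈ χ.ker) : Group.FG G := by
  classical
  refine Group.fg_iff.2 ⟨Set.range g ∪ (χ.ker : Set G), ?_,
    (Set.finite_range g).union (Set.toFinite _)⟩
  rw [eq_top_iff]
  intro x _
  obtain ⟨y, hy, h⟩ := hg x
  have e : x = y * (y⁻¹ * x) := by group
  rw [e]
  exact mul_mem (Subgroup.closure_mono Set.subset_union_left hy)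
    (Subgroup.subset_closure (Or.inr h))

theorem rank_of_ext (χ : G →* Multiplicative (Fin m → ℤ)) (hχ : Function.Surjective χ)
    (hK : Finite χ.ker) : VirtAbelianRank G m := by
  classical
  set g : Fin m → G := fun i => Function.surjInv hχ (Multiplicative.ofAdd (Pi.single i 1)) with hgd
  have hgi : ∀ i, χ (g i) = Multiplicative.ofAdd (Pi.single i 1) := fun i =>
    Function.surjInv_eq hχ _
  have hgen : ∀ x : G, ∃ y ∈ Subgroup.closure (Set.range g), y⁻¹ * x ∈ χ.ker := by
    intro x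
    have key : ∀ (s : Finset (Fin m)) (v : Fin m → ℤ), ∃ y ∈ Subgroup.closure (Set.range g),
        χ y = Multiplicative.ofAdd (∑ i ∈ s, v i • (Pi.single i (1 : ℤ) : Fin m → ℤ)) := by
      intro s v
      induction s using Finset.induction_on with
      | empty => exact ⟨1, one_mem _, by simp⟩
      | insert i s hi ih =>
        obtain ⟨y, hy, h⟩ := ih
        refine ⟨g i ^ v i * y, mul_mem (zpow_mem (Subgroup.subset_closure (Set.mem_range_self i)) _) hy, ?_⟩
        rw [map_mul, map_zpow, hgi, h, Finset.sum_insert hi, ofAdd_add, ofAdd_zsmul]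
    obtain ⟨y, hy, h⟩ := key Finset.univ (Multiplicative.toAdd (χ x))
    refine ⟨y, hy, ?_⟩
    have e : ∑ i, (Multiplicative.toAdd (χ x)) i • (Pi.single i (1 : ℤ) : Fin m → ℤ) =
        Multiplicative.toAdd (χ x) := by
      funext j
      simp [Finset.sum_apply, Pi.single_apply]
    rw [e, ofAdd_toAdd] at h
    rw [MonoidHom.mem_ker, map_mul, map_inv, h, inv_mul_cancel]
  have hfg : Group.FG G := fg_of_ext χ hK g hgen
  have hKc : ∀ a b : G, ⁅a, b⁆ ∈ χ.ker := fun a b => by
    rw [MonoidHom.mem_ker, map_commutatorElement, commutatorElement_eq_one_iff_mul_comm]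
    exact mul_comm _ _
  obtain ⟨A, h1, h2, S, h3, h4⟩ := H409.A.gen_bound χ.ker hKc g hgen
  exact ⟨A, h1, h2, S, by simpa using h3, h4⟩

end

section
variable {Q : Type} [Group Q] {m r : ℕ}

theorem rank_of_fi (G : Subgroup Q) [G.FiniteIndex] (h : VirtAbelianRank G m) :
    VirtAbelianRank Q m := by
  classical
  obtain ⟨A, h1, h2, S, h3, h4⟩ := h
  refine ⟨A.map G.subtype, ?_, ?_, S.image G.subtype, Finset.card_image_le.trans h3, ?_⟩
  · refine ⟨?_⟩
    rw [Subgroup.index_map_subtype]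
    exact mul_ne_zero h1.index_ne_zero (Subgroup.FiniteIndex.index_ne_zero (H := G))
  · rintro _ ⟨a, ha, rfl⟩ _ ⟨b, hb, rfl⟩
    rw [← map_mul, ← map_mul, h2 a ha b hb]
  · rw [Finset.coe_image, ← MonoidHom.map_closure, h4]

theorem rank_mono {k : ℕ} (h : VirtAbelianRank Q m) (hk : m ≤ k) : VirtAbelianRank Q k := by
  obtain ⟨A, h1, h2, S, h3, h4⟩ := h
  exact ⟨A, h1, h2, S, h3.trans hk, h4⟩

theorem not_nsRep (h : VirtAbelianRank Q m) : ¬ NSRep Q := by
  obtain ⟨A, h1, h2, -⟩ := h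
  rintro ⟨d, ρ, h3⟩
  refine h3 A h1 (Group.isSolvable_of_comm ?_)
  rintro ⟨_, a, ha, rfl⟩ ⟨_, b, hb, rfl⟩
  refine Subtype.ext ?_
  show ρ a * ρ b = ρ b * ρ a
  rw [← map_mul, ← map_mul, h2 a ha b hb]

theorem not_section (h : VirtAbelianRank Q m) : ¬ KazhdanSection Q := by
  rintro ⟨G, K, N, hKn, hNn, hfi, hle, hinf, hT⟩
  have h1 : Folner Q := H837.folner_of_virtAbelianRank h
  have h2 : Folner G := H446.QC.folner_subgroup h1 G
  have h3 : Folner (G ⧸ N) := H213.Q.folner_of_surjective _ (QuotientGroup.mk'_surjective N) h2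
  have h4 : Folner (K.map (QuotientGroup.mk' N)) := H446.QC.folner_subgroup h3 _
  exact H988.N.not_kazhdan_of_folner h4 hT

theorem rank_of_t3n0 (h : T3N0 Q r) (hs : ¬ KazhdanSection Q) : VirtAbelianRank Q r := by
  obtain ⟨G, m, χ, hG, hm, hχ, -, h⟩ := h
  rcases h with h | ⟨N, hN, hle, hinf, hT⟩
  · exact rank_mono (rank_of_fi G (rank_of_ext χ hχ h)) hm
  · exact (hs ⟨G, χ.ker, N, inferInstance, hN, hG, hle, hinf, hT⟩).elim

theorem rank_of_t3n (h : T3N Q r) (hs : ¬ KazhdanSection Q) (hn : ¬ NSRepSub Q) :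
    VirtAbelianRank Q r := by
  obtain ⟨G, m, χ, hG, hm, hχ, hfg, h⟩ := h
  rcases h with h | ⟨N, hN, hle, hinf, hT⟩ | h
  · exact rank_mono (rank_of_fi G (rank_of_ext χ hχ h)) hm
  · exact (hs ⟨G, χ.ker, N, inferInstance, hN, hG, hle, hinf, hT⟩).elim
  · exact (hn ⟨G, χ.ker, inferInstance, hG, hfg, h⟩).elim

/-- **Criterion**, representations of the group -/
theorem iff_of_png (h : NSRep Q ∨ T3N0 Q r) :
    VirtAbelianRank Q r ↔ ¬ NSRep Q ∧ ¬ KazhdanSection Q := by
  constructor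
  · intro h1
    exact ⟨not_nsRep h1, not_section h1⟩
  · rintro ⟨h1, h2⟩
    exact rank_of_t3n0 (h.resolve_left h1) h2

end

section
variable {Q : Type} [Group Q] {m r : ℕ}

theorem rank_sub (h : VirtAbelianRank Q m) (G : Subgroup Q) : ∃ A : Subgroup G, A.FiniteIndex ∧
    ∀ a ∈ A, ∀ b ∈ A, a * b = b * a := by
  obtain ⟨A, h1, h2, -⟩ := h
  refine ⟨A.subgroupOf G, inferInstance, fun a ha b hb => Subtype.ext (h2 a ha b hb)⟩

theorem not_nsRepSub (h : VirtAbelianRank Q m) : ¬ NSRepSub Q := by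
  rintro ⟨G, K, -, hG, -, d, ρ, h3⟩
  obtain ⟨A, h1, h2⟩ := rank_sub h G
  have : A.FiniteIndex := h1
  refine h3 (A.subgroupOf K) inferInstance (Group.isSolvable_of_comm ?_)
  rintro ⟨_, a, ha, rfl⟩ ⟨_, b, hb, rfl⟩
  refine Subtype.ext ?_
  show ρ a * ρ b = ρ b * ρ a
  rw [← map_mul, ← map_mul]
  congr 1
  exact Subtype.ext (h2 a ha b hb)

/-- **Criterion**, representations of normal subgroups of subgroups of finite index -/
theorem iff_of_t3n (h : T3N Q r) :
    VirtAbelianRank Q r ↔ ¬ NSRepSub Q ∧ ¬ KazhdanSection Q := by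
  constructor
  · intro h1
    exact ⟨not_nsRepSub h1, not_section h1⟩
  · rintro ⟨h1, h2⟩
    exact rank_of_t3n h h2 h1

end

end Vale.Agent.P284.H402.R
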