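import Vale.Agent.P284.H402.R.Defs

/-!
# P284 (helper402): the criterion for virtually abelian quotients
-/

noncomputable section

namespace Vale.Agent.P284.H402.R

open Vale.Agent.P284.H894.G Vale.Agent.P284.H894.F Vale.Agent.P284.H213.T3 Vale.Agent.P284.H213.G
  Vale.Agent.P284.H119.Kaz Vale.Agent.P284.H248

variable {Q : Type} [Group Q] {r : ℕ}

theorem not_nsRepV (h : VirtuallyAbelian Q) : ¬ NSRep Q := by
  obtain ⟨A, h1, h2⟩ := h
  rintro ⟨d, ρ, h3⟩
  refine h3 A h1 (Group.isSolvable_of_comm ?_)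
  rintro ⟨_, a, ha, rfl⟩ ⟨_, b, hb, rfl⟩
  refine Subtype.ext ?_
  show ρ a * ρ b = ρ b * ρ a
  rw [← map_mul, ← map_mul, h2 a ha b hb]

theorem not_sectionV (h : VirtuallyAbelian Q) : ¬ KazhdanSection Q := by
  rintro ⟨G, K, N, hKn, hNn, hfi, hle, hinf, hT⟩
  have h1 : Folner Q := H837.folner_of_virtuallyAbelian h
  have h2 : Folner G := H446.QC.folner_subgroup h1 G
  have h3 : Folner (G ⧸ N) := H213.Q.folner_of_surjective _ (QuotientGroup.mk'_surjective N) h2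
  have h4 : Folner (K.map (QuotientGroup.mk' N)) := H446.QC.folner_subgroup h3 _
  exact H988.N.not_kazhdan_of_folner h4 hT

/-- **Criterion**: virtually abelian quotients -/
theorem iff_va (h : NSRep Q ∨ T3N0 Q r) :
    (VirtuallyAbelian Q ↔ ¬ NSRep Q ∧ ¬ KazhdanSection Q) ∧
      (VirtuallyAbelian Q → VirtAbelianRank Q r) := by
  have h1 : ¬ NSRep Q ∧ ¬ KazhdanSection Q → VirtAbelianRank Q r := fun h2 =>
    rank_of_t3n0 (h.resolve_left h2.1) h2.2
  refine ⟨⟨fun h2 => ⟨not_nsRepV h2, not_sectionV h2⟩, fun h2 => ?_⟩,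
    fun h2 => h1 ⟨not_nsRepV h2, not_sectionV h2⟩⟩
  obtain ⟨A, h3, h4, -⟩ := h1 h2
  exact ⟨A, h3, h4⟩

end Vale.Agent.P284.H402.R
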