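import Vale.Agent.P284.H402.R.Fin

/-!
# Quotients of the fundamental groups of special compact Kähler manifolds

Let `X` be a connected compact Kähler manifold of dimension `n` which is special in the sense of Campana,
and let `Q` be a quotient of its fundamental group (for example `π₁(X)` itself).

* Either `Q` has a finite dimensional real representation the image of which is not virtually solvable, or
  a subgroup of finite index of `Q` maps onto `ℤ^m`, `m ≤ 2 n`, with finitely generated kernel `K`, which
  is finite or has an infinite quotient with Kazhdan's property (T).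
* `Q` is virtually abelian if and only if it has no such representation and no infinite section with
  property (T); then its rank is at most `2 n`.
* If all finite dimensional real representations of `Q` have finite image, then `Q` has property (T); in
  particular `Q` is finite if it has the Haagerup property.
-/

open scoped Manifold ContDiff
open Vale.Agent.P272.K Vale.Agent.P284.H248 Vale.Agent.P284.H894 Vale.Agent.P284.H894.G
  Vale.Agent.P284.H894.F Vale.Agent.P284.H213.T3 Vale.Agent.P284.H661.Grp Vale.Agent.P284.H402.R

namespace Vale.Agent.P284.H402.R.Txt

theorem result {n : ℕ} {X : Type} [TopologicalSpace X] [T2Space X] [CompactSpace X]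
    [ConnectedSpace X] [ChartedSpace (Cm n) X] [IsManifold 𝓘(ℂ, Cm n) ω X]
    (hX : ∃ w : Chart n X → Cm n → Matrix (Fin n) (Fin n) ℂ, IsKahler w) (hS : Special n X) (x : X)
    (Q : Type) [Group Q] (f : FundamentalGroup X x →* Q) (hf : Function.Surjective f) :
    (NSRep Q ∨ AbelianOrKazhdan Q (2 * n)) ∧
    (VirtuallyAbelian Q ↔ ¬ NSRep Q ∧ ¬ KazhdanSection Q) ∧
    (VirtuallyAbelian Q → VirtAbelianRank Q (2 * n)) ∧
    (FiniteImages Q → H661.Grp.PropertyT Q ∧ (Haagerup Q → Finite Q)) := by
  obtain ⟨w, hw⟩ := hX
  exact struct_of t2S Vale.Agent.P284.H213.N.t3G hw hS x Q f hf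

end Vale.Agent.P284.H402.R.Txt
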